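import Vale.Agent.P040.Sph99.Labels
import Vale.Agent.P040.Sph81.Main

/-!
# The labelling lemma: general position implies the existence of a labelling
(bridge from the chain of windmill moves of `Sph81` to `Sph99.lab_of_reach`)
-/

namespace Vale.Agent.P040.Sph99

open Finset Vale.Agent.P040.Sph56 Vale.Agent.P040.Sph81

variable {k : ℕ}

/-- the vectors as a sequence -/
noncomputable def sq (v : Fin (2 * k + 1) → V3) (i : ℕ) : V3 :=
  if h : i < 2 * k + 1 then v ⟨i, h⟩ else 0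

lemma sq_val (v : Fin (2 * k + 1) → V3) (q : Fin (2 * k + 1)) : sq v q.val = v q := by
  unfold sq
  rw [dif_pos q.isLt]

lemma gp_sq (v : Fin (2 * k + 1) → V3)
    (h : ∀ i i' i'', i ≠ i' → i ≠ i'' → i' ≠ i'' → det3 (v i) (v i') (v i'') ≠ 0) :
    GP k (sq v) := by
  intro i hi j hj l hl hij hil hjl
  have e1 := sq_val v ⟨i, hi⟩
  have e2 := sq_val v ⟨j, hj⟩
  have e3 := sq_val v ⟨l, hl⟩
  simp only at e1 e2 e3
  rw [e1, e2, e3]
  apply h
  · exact fun hh => hij (Fin.mk.inj_iff.1 hh)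
  · exact fun hh => hil (Fin.mk.inj_iff.1 hh)
  · exact fun hh => hjl (Fin.mk.inj_iff.1 hh)

lemma mem_of_Rl {v : Fin (2 * k + 1) → V3} {s : St} {n : V3} (h : Rl k (sq v) s n)
    (q : Fin (2 * k + 1)) : q.val ∈ s.2 ↔ 0 < dot n (v q) := by
  rw [h.2.2.2.1, mem_filter, mem_range, sq_val]
  exact ⟨fun hh => hh.2, fun hh => ⟨q.isLt, hh⟩⟩

lemma halv_of_Rl {v : Fin (2 * k + 1) → V3} {s : St} {n : V3} (h : Rl k (sq v) s n) :
    Halv k v n ⟨s.1, h.1⟩ where
  perp := by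
    have := h.2.1
    rwa [← sq_val v ⟨s.1, h.1⟩]
  ne := by
    intro q hq
    have := h.2.2.1 q.val q.isLt (fun hh => hq (Fin.ext hh))
    rwa [sq_val] at this
  card := by
    refine Eq.trans ?_ h.2.2.2.2
    apply card_bij (fun q _ => q.val)
    · intro q hq
      exact (mem_of_Rl h q).2 (mem_filter.1 hq).2
    · intro q _ q' _ hh
      exact Fin.ext hh
    · intro j hj
      have hj' : j < 2 * k + 1 := by
        rw [h.2.2.2.1, mem_filter, mem_range] at hj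
        exact hj.1
      exact ⟨⟨j, hj'⟩, mem_filter.2 ⟨mem_univ _, (mem_of_Rl h ⟨j, hj'⟩).1 hj⟩, rfl⟩

/-- **The labelling lemma.** -/
theorem exists_lab (v : Fin (2 * k + 1) → V3)
    (h : ∀ i i' i'', i ≠ i' → i ≠ i'' → i' ≠ i'' → det3 (v i) (v i') (v i'') ≠ 0) :
    ∃ (sigma : Fin (2 * k + 1) ≃ Fin (2 * k + 1)) (nn : ℕ → V3),
      Lab k (fun i => if h : i < 2 * k + 1 then v (sigma ⟨i, h⟩) else 0) nn := by
  classical
  obtain ⟨s, hs, hch⟩ := exists_chain k (sq v) (gp_sq v h)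
  let S : Type := {t : St // ∃ n, Rl k (sq v) t n}
  let nrm : S → V3 := fun t => t.2.choose
  have hn : ∀ t : S, Rl k (sq v) t.1 (nrm t) := fun t => t.2.choose_spec
  let piv : S → Fin (2 * k + 1) := fun t => ⟨t.1.1, (hn t).1⟩
  let Adj : S → S → Prop := fun t t' => Move k (sq v) t.1 t'.1
  have lift : ∀ t, Relation.ReflTransGen (Move k (sq v)) s t →
      ∃ ht : ∃ n, Rl k (sq v) t n, Relation.ReflTransGen Adj ⟨s, hs⟩ ⟨t, ht⟩ := by
    intro t ht
    induction ht with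
    | refl => exact ⟨hs, Relation.ReflTransGen.refl⟩
    | @tail b c _ hbc ih =>
      obtain ⟨hb, hr⟩ := ih
      exact ⟨hbc.2.1, hr.tail hbc⟩
  obtain ⟨ht, hr⟩ := lift _ hch
  apply lab_of_reach Adj nrm piv (fun t => halv_of_Rl (hn t)) ?_ ⟨s, hs⟩ ⟨tau k s, ht⟩ hr rfl ?_
  · intro t t' hm q hq hq'
    rw [← mem_of_Rl (hn t) q, ← mem_of_Rl (hn t') q]
    have h1 : q.val ≠ t.1.1 := fun hh => hq (Fin.ext hh)
    have h2 : q.val ≠ t'.1.1 := fun hh => hq' (Fin.ext hh)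
    rcases hm.2.2.2 with ⟨_, e⟩ | ⟨_, e⟩
    · rw [e]
    · rw [e, mem_insert, mem_erase]
      constructor
      · exact fun hh => Or.inr ⟨h2, hh⟩
      · rintro (hh | hh)
        · exact absurd hh h1
        · exact hh.2
  · intro q hq
    have h1 : q.val ≠ s.1 := fun hh => hq (Fin.ext hh)
    rw [← mem_of_Rl (hn ⟨tau k s, ht⟩) q]
    have h2 := mem_of_Rl (hn ⟨s, hs⟩) q
    have h3 := (halv_of_Rl (hn ⟨s, hs⟩)).ne q hq
    show q.val ∈ (tau k s).2 ↔ _
    unfold tau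
    simp only [mem_sdiff, mem_erase, mem_range]
    constructor
    · rintro ⟨_, hh⟩
      have : ¬ 0 < dot (nrm ⟨s, hs⟩) (v q) := fun h4 => hh (h2.2 h4)
      exact lt_of_le_of_ne (not_lt.1 this) h3
    · intro hh
      refine ⟨⟨h1, q.isLt⟩, fun h4 => ?_⟩
      have := h2.1 h4
      linarith

end Vale.Agent.P040.Sph99
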