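import Vale.Agent.P040.Sph56.Defs

/-!
# A walk of halving states from a state to its antipode gives a labelling (module M1c)
-/

namespace Vale.Agent.P040.Sph99

open Finset Vale.Agent.P040.Sph56

/-- `n` is the normal of a halving great circle through `v p` -/
structure Halv (k : ℕ) (v : Fin (2 * k + 1) → V3) (n : V3) (p : Fin (2 * k + 1)) : Prop where
  perp : dot n (v p) = 0
  ne : ∀ q, q ≠ p → dot n (v q) ≠ 0
  card : (univ.filter fun q => 0 < dot n (v q)).card = k

lemma dot_ng (a b : V3) : dot (ng a) b = - dot a b := by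
  unfold dot ng
  ring

/-- a chain as a sequence -/
lemma seq_of_reach {S : Type} {Adj : S → S → Prop} {s0 s1 : S}
    (h : Relation.ReflTransGen Adj s0 s1) :
    ∃ (L : ℕ) (w : ℕ → S), w 0 = s0 ∧ w L = s1 ∧ ∀ t < L, Adj (w t) (w (t + 1)) := by
  induction h with
  | refl => exact ⟨0, fun _ => s0, rfl, rfl, fun t ht => absurd ht (Nat.not_lt_zero t)⟩
  | @tail b c _ hbc ih =>
    obtain ⟨L, w, h0, hL, hw⟩ := ih
    refine ⟨L + 1, fun t => if t ≤ L then w t else c, ?_, ?_, ?_⟩
    · simp [h0]
    · simp
    · intro t ht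
      by_cases htL : t < L
      · have h1 : t ≤ L := htL.le
        have h2 : t + 1 ≤ L := htL
        simp only [h1, h2, if_true]
        exact hw t htL
      · have h1 : t = L := by omega
        subst h1
        simp only [le_refl, if_true, Nat.add_one_le_iff, lt_irrefl, if_false]
        rw [hL]
        exact hbc

variable {k : ℕ} {v : Fin (2 * k + 1) → V3}

lemma Halv.card_neg {n : V3} {p : Fin (2 * k + 1)} (h : Halv k v n p) :
    (univ.filter fun q => 0 < dot (ng n) (v q)).card = k := by
  have h1 : (univ.filter fun q => 0 < dot (ng n) (v q)) =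
      (univ.erase p).filter fun q => ¬ 0 < dot n (v q) := by
    ext q
    simp only [mem_filter, mem_univ, true_and, mem_erase, and_true, dot_ng]
    constructor
    · intro hq
      refine ⟨?_, by linarith⟩
      rintro rfl
      rw [h.perp] at hq
      linarith
    · rintro ⟨hq, hn⟩
      have := h.ne q hq
      have h3 : dot n (v q) < 0 := lt_of_le_of_ne (not_lt.1 hn) this
      linarith
  have h2 : (univ.filter fun q => 0 < dot n (v q)) =
      (univ.erase p).filter fun q => 0 < dot n (v q) := by
    ext q
    simp only [mem_filter, mem_univ, true_and, mem_erase, and_true]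
    constructor
    · intro hq
      refine ⟨?_, hq⟩
      rintro rfl
      rw [h.perp] at hq
      exact lt_irrefl _ hq
    · exact fun hq => hq.2
  have h3 := card_filter_add_card_filter_not (s := univ.erase p)
    (fun q => 0 < dot n (v q))
  have h4 : (univ.erase p).card = 2 * k := by
    rw [card_erase_of_mem (mem_univ p), card_univ, Fintype.card_fin]
    omega
  have h5 := h.card
  rw [h2] at h5
  rw [h1]
  omega

lemma Halv.neg {n : V3} {p : Fin (2 * k + 1)} (h : Halv k v n p) : Halv k v (ng n) p where
  perp := by rw [dot_ng, h.perp, neg_zero]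
  ne := fun q hq => by rw [dot_ng]; exact neg_ne_zero.2 (h.ne q hq)
  card := h.card_neg

/-- a point keeps its side as long as it is not a pivot -/
lemma side_keep {S : Type} (nrm : S → V3) (piv : S → Fin (2 * k + 1)) (w : ℕ → S) (L : ℕ)
    (hA : ∀ t < L, ∀ q, q ≠ piv (w t) → q ≠ piv (w (t + 1)) →
      (0 < dot (nrm (w t)) (v q) ↔ 0 < dot (nrm (w (t + 1))) (v q)))
    (q : Fin (2 * k + 1)) : ∀ t ≤ L, (∀ t' ≤ t, piv (w t') ≠ q) →
      (0 < dot (nrm (w t)) (v q) ↔ 0 < dot (nrm (w 0)) (v q)) := by
  intro t
  induction t with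
  | zero => intro _ _; exact Iff.rfl
  | succ t ih =>
    intro ht hq
    have h1 := ih (by omega) (fun t' ht' => hq t' (by omega))
    have h2 := hA t (by omega) q (Ne.symm (hq t (by omega))) (Ne.symm (hq (t + 1) le_rfl))
    exact h2.symm.trans h1

/-- abstract sorting step: from a key and normals to a labelling -/
lemma lab_of_key (κ : Fin (2 * k + 1) → ℤ) (ν : Fin (2 * k + 1) → V3)
    (hH : ∀ q, Halv k v (ν q) q)
    (c4 : ∀ q q', κ q ≤ 0 → κ q' < κ q → 0 < dot (ν q) (v q'))
    (c5 : ∀ q q', 0 < κ q → κ q < κ q' → 0 < dot (ν q) (v q'))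
    (c6 : Function.Injective κ)
    (c7 : (univ.filter fun q => κ q ≤ 0).card = k + 1) :
    ∃ (sigma : Fin (2 * k + 1) ≃ Fin (2 * k + 1)) (nn : ℕ → V3),
      Lab k (fun i => if h : i < 2 * k + 1 then v (sigma ⟨i, h⟩) else 0) nn := by
  classical
  set σ : Equiv.Perm (Fin (2 * k + 1)) := Tuple.sort κ with hσ
  have mono : StrictMono (κ ∘ σ) :=
    (Tuple.monotone_sort κ).strictMono_of_injective (c6.comp σ.injective)
  have cZ : (univ.filter fun i => κ (σ i) ≤ 0).card = k + 1 := by
    rw [← c7]
    apply card_bij (fun i _ => σ i)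
    · intro i hi
      simpa using hi
    · intro i _ j _ hij
      exact σ.injective hij
    · intro q hq
      refine ⟨σ.symm q, ?_, by simp⟩
      simpa using hq
  have f2 : ∀ i : Fin (2 * k + 1), κ (σ i) ≤ 0 ↔ i.val ≤ k := by
    intro i
    constructor
    · intro hi
      have hsub : Iic i ⊆ univ.filter fun i => κ (σ i) ≤ 0 := by
        intro j hj
        rw [mem_filter]
        refine ⟨mem_univ _, le_trans (mono.monotone (mem_Iic.1 hj)) hi⟩
      have := card_le_card hsub
      rw [cZ, Fin.card_Iic] at this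
      omega
    · intro hi
      by_contra hc
      have hsub : (univ.filter fun i => κ (σ i) ≤ 0) ⊆ Iio i := by
        intro j hj
        rw [mem_filter] at hj
        rw [mem_Iio]
        exact mono.lt_iff_lt.1 (lt_of_le_of_lt hj.2 (not_le.1 hc))
      have := card_le_card hsub
      rw [cZ, Fin.card_Iio] at this
      omega
  refine ⟨σ, fun i => if h : i < 2 * k + 1 then ν (σ ⟨i, h⟩) else 0, ?_, ?_, ?_, ?_, ?_⟩
  · intro i hi
    simp only [dif_pos hi]
    exact (hH _).perp
  · intro i hi j hj hij
    simp only [dif_pos hi, dif_pos hj]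
    apply (hH _).ne
    intro h
    apply hij
    have := σ.injective h
    exact (Fin.mk.inj_iff.1 this).symm
  · intro i hi j hj
    have hi' : i < 2 * k + 1 := by omega
    have hj' : j < 2 * k + 1 := by omega
    simp only [dif_pos hi', dif_pos hj']
    apply c4
    · exact (f2 ⟨i, hi'⟩).2 hi
    · exact mono (Fin.mk_lt_mk.2 hj)
  · intro i hi hi' j hj hj'
    simp only [dif_pos hi', dif_pos hj']
    apply c5
    · by_contra hc
      have := (f2 ⟨i, hi'⟩).1 (not_lt.1 hc)
      simp only at this
      omega
    · exact mono (Fin.mk_lt_mk.2 hj)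
  · intro i hi
    simp only [dif_pos hi]
    refine le_trans ?_ (le_of_eq (hH (σ ⟨i, hi⟩)).card)
    apply card_le_card_of_injOn (fun j => if h : j < 2 * k + 1 then σ ⟨j, h⟩ else σ ⟨i, hi⟩)
    · intro j hj
      have hj1 := (mem_filter.1 (mem_coe.1 hj))
      have hj' : j < 2 * k + 1 := mem_range.1 hj1.1
      have hj2 := hj1.2
      simp only [dif_pos hj'] at hj2 ⊢
      exact mem_coe.2 (mem_filter.2 ⟨mem_univ _, hj2⟩)
    · intro j hj j' hj' h
      have h1 : j < 2 * k + 1 := mem_range.1 (mem_filter.1 (mem_coe.1 hj)).1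
      have h2 : j' < 2 * k + 1 := mem_range.1 (mem_filter.1 (mem_coe.1 hj')).1
      simp only [dif_pos h1, dif_pos h2] at h
      exact Fin.mk.inj_iff.1 (σ.injective h)

/-- **M1c**: a walk of halving states from a state to its antipode gives a labelling. -/
theorem lab_of_reach {S : Type} (Adj : S → S → Prop) (nrm : S → V3) (piv : S → Fin (2 * k + 1))
    (hH : ∀ s, Halv k v (nrm s) (piv s))
    (hA : ∀ s t, Adj s t → ∀ q, q ≠ piv s → q ≠ piv t →
      (0 < dot (nrm s) (v q) ↔ 0 < dot (nrm t) (v q)))
    (s0 s1 : S) (hr : Relation.ReflTransGen Adj s0 s1) (hp : piv s1 = piv s0)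
    (hE : ∀ q, q ≠ piv s0 → (0 < dot (nrm s1) (v q) ↔ dot (nrm s0) (v q) < 0)) :
    ∃ (sigma : Fin (2 * k + 1) ≃ Fin (2 * k + 1)) (nn : ℕ → V3),
      Lab k (fun i => if h : i < 2 * k + 1 then v (sigma ⟨i, h⟩) else 0) nn := by
  classical
  obtain ⟨L, w, h0, hL, hw⟩ := seq_of_reach hr
  have keep := side_keep (v := v) nrm piv w L (fun t ht q h1 h2 => hA _ _ (hw t ht) q h1 h2)
  have ex : ∀ q, q ≠ piv s0 → ∃ t, t ≤ L ∧ piv (w t) = q := by
    intro q hq
    by_contra hcon
    have hcon' : ∀ t' ≤ L, piv (w t') ≠ q := fun t' ht' hc => hcon ⟨t', ht', hc⟩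
    have h1 := keep q L le_rfl hcon'
    rw [hL, h0] at h1
    have h2 := hE q hq
    have h3 := (hH s0).ne q hq
    rcases lt_or_gt_of_ne h3 with h4 | h4
    · have := h1.1 (h2.2 h4)
      linarith
    · have := h2.1 (h1.2 h4)
      linarith
  choose! T hT using ex
  -- minimal pivot times
  have ex2 : ∀ q, q ≠ piv s0 → ∃ t, (t ≤ L ∧ piv (w t) = q) ∧
      ∀ t' < t, t' ≤ L → piv (w t') ≠ q := by
    intro q hq
    have hex : ∃ t, t ≤ L ∧ piv (w t) = q := ⟨T q, hT q hq⟩
    refine ⟨Nat.find hex, Nat.find_spec hex, fun t' ht' htL hc => Nat.find_min hex ht' ⟨htL, hc⟩⟩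
  choose! U hU using ex2
  have U_le : ∀ q, q ≠ piv s0 → U q ≤ L := fun q hq => (hU q hq).1.1
  have U_piv : ∀ q, q ≠ piv s0 → piv (w (U q)) = q := fun q hq => (hU q hq).1.2
  have U_min : ∀ q, q ≠ piv s0 → ∀ t' < U q, t' ≤ L → piv (w t') ≠ q := fun q hq => (hU q hq).2
  have U_pos : ∀ q, q ≠ piv s0 → 0 < U q := by
    intro q hq
    rcases Nat.eq_zero_or_pos (U q) with h1 | h1
    · have := U_piv q hq
      rw [h1, h0] at this
      exact absurd this.symm hq
    · exact h1
  -- a point with a later pivot time still has its initial side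
  have later : ∀ q q', q ≠ piv s0 → q' ≠ piv s0 → U q < U q' →
      (0 < dot (nrm (w (U q))) (v q') ↔ 0 < dot (nrm s0) (v q')) := by
    intro q q' hq hq' hlt
    have := keep q' (U q) (U_le q hq)
      (fun t' ht' => U_min q' hq' t' (lt_of_le_of_lt ht' hlt) (le_trans ht' (U_le q hq)))
    rwa [h0] at this
  apply lab_of_key
    (fun q => if q = piv s0 then 0 else if 0 < dot (nrm s0) (v q) then -(U q : ℤ) else (U q : ℤ))
    (fun q => if q = piv s0 then nrm s0 else
      if 0 < dot (nrm s0) (v q) then nrm (w (U q)) else ng (nrm (w (U q))))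
  · intro q
    by_cases hq : q = piv s0
    · simp only [if_pos hq]
      rw [hq]
      exact hH s0
    · simp only [if_neg hq]
      have h1 := hH (w (U q))
      rw [U_piv q hq] at h1
      split_ifs
      · exact h1
      · exact h1.neg
  · intro q q' h1 h2
    have hq' : q' ≠ piv s0 ∧ 0 < dot (nrm s0) (v q') := by
      have h3 : (if q' = piv s0 then (0 : ℤ) else
          if 0 < dot (nrm s0) (v q') then -(U q' : ℤ) else (U q' : ℤ)) < 0 := lt_of_lt_of_le h2 h1
      by_cases a : q' = piv s0
      · simp [a] at h3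
      · by_cases b : 0 < dot (nrm s0) (v q')
        · exact ⟨a, b⟩
        · simp only [if_neg a, if_neg b] at h3
          omega
    by_cases hq : q = piv s0
    · simp only [if_pos hq]
      exact hq'.2
    · have hpos : 0 < dot (nrm s0) (v q) := by
        by_contra b
        simp only [if_neg hq, if_neg b] at h1
        have := U_pos q hq
        omega
      simp only [if_neg hq, if_pos hpos, if_neg hq'.1, if_pos hq'.2] at h2 ⊢
      exact (later q q' hq hq'.1 (by omega)).2 hq'.2
  · intro q q' h1 h2
    have hq : q ≠ piv s0 ∧ ¬ 0 < dot (nrm s0) (v q) := by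
      by_cases a : q = piv s0
      · simp [a] at h1
      · by_cases b : 0 < dot (nrm s0) (v q)
        · simp only [if_neg a, if_pos b] at h1
          omega
        · exact ⟨a, b⟩
    have hq' : q' ≠ piv s0 ∧ ¬ 0 < dot (nrm s0) (v q') := by
      have h3 : 0 < (if q' = piv s0 then (0 : ℤ) else
          if 0 < dot (nrm s0) (v q') then -(U q' : ℤ) else (U q' : ℤ)) := lt_trans h1 h2
      by_cases a : q' = piv s0
      · simp [a] at h3
      · by_cases b : 0 < dot (nrm s0) (v q')
        · simp only [if_neg a, if_pos b] at h3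
          omega
        · exact ⟨a, b⟩
    simp only [if_neg hq.1, if_neg hq.2, if_neg hq'.1, if_neg hq'.2] at h2 ⊢
    have hlt : U q < U q' := by omega
    have h4 : ¬ 0 < dot (nrm (w (U q))) (v q') := fun h => hq'.2 ((later q q' hq.1 hq'.1 hlt).1 h)
    have hne : q' ≠ piv (w (U q)) := by
      rw [U_piv q hq.1]
      rintro rfl
      exact lt_irrefl _ hlt
    have h5 := (hH (w (U q))).ne q' hne
    rw [dot_ng]
    have h6 : dot (nrm (w (U q))) (v q') < 0 := lt_of_le_of_ne (not_lt.1 h4) h5
    linarith
  · intro q q' h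
    simp only at h
    by_cases a : q = piv s0 <;> by_cases a' : q' = piv s0
    · rw [a, a']
    · exfalso
      have := U_pos q' a'
      simp only [if_pos a, if_neg a'] at h
      split_ifs at h <;> omega
    · exfalso
      have := U_pos q a
      simp only [if_neg a, if_pos a'] at h
      split_ifs at h <;> omega
    · have p1 := U_pos q a
      have p2 := U_pos q' a'
      simp only [if_neg a, if_neg a'] at h
      have : U q = U q' := by
        split_ifs at h <;> omega
      rw [← U_piv q a, ← U_piv q' a', this]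
  · have hset : (univ.filter fun q => (if q = piv s0 then (0 : ℤ) else
        if 0 < dot (nrm s0) (v q) then -(U q : ℤ) else (U q : ℤ)) ≤ 0) =
        insert (piv s0) (univ.filter fun q => 0 < dot (nrm s0) (v q)) := by
      ext q
      simp only [mem_filter, mem_univ, true_and, mem_insert]
      by_cases a : q = piv s0
      · simp [a]
      · have := U_pos q a
        by_cases b : 0 < dot (nrm s0) (v q)
        · rw [if_neg a, if_pos b]
          constructor
          · exact fun _ => Or.inr b
          · intro _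
            omega
        · rw [if_neg a, if_neg b]
          constructor
          · intro h
            omega
          · rintro (h | h)
            · exact absurd h a
            · exact absurd h b
    rw [hset, card_insert_of_notMem, (hH s0).card]
    rw [mem_filter, (hH s0).perp]
    exact fun h => lt_irrefl _ h.2

end Vale.Agent.P040.Sph99
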